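import Crest.Agent.X262.Hb.Defs

/-!
# Row 262, road B, SYM and TWO-STEP (helper65), part 0: families of classes along places

* `PF B K`, `PX B K` : a class (a polynomial) for every place of `K`;
* `Liv B Z φ`, `LivX B Z Φ` : the family lives on the set `Z` of valuation rings: it is natural
  for composite places and defined by the values of finitely many functions;
* `Sup D` : the support of a b-divisor;  `sm a f = ∑_V ord_V a · f V`;
* `cut B D φ V` : the integral of `φ` over `V · D`;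
* `SymStmt`, `TwoStmt`.
-/

set_option autoImplicit false
set_option linter.unusedSectionVars false

noncomputable section

namespace Crest.Agent.X262.Sym65

open Crest.Agent.X277 Crest.Agent.X277.BD Crest.Agent.X277.Pst Crest.Agent.X277.BD.Cyc Polynomial
open Crest.Agent.X262.Geo (od)
open Crest.Agent.X262.Hb

/-- a class for every place -/
abbrev PF (B : Th) (K : Type) [Field K] [Algebra ℂ K] : Type 1 :=
  ∀ (E : Type) [Field E] [Algebra ℂ E], LP K E → B.H E

/-- a polynomial for every place -/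
abbrev PX (B : Th) (K : Type) [Field K] [Algebra ℂ K] : Type 1 :=
  ∀ (E : Type) [Field E] [Algebra ℂ E], LP K E → (B.H E)[X]

variable {K : Type} [Field K] [Algebra ℂ K]

open Classical in
/-- the value of a function at a place (`none` is `∞`) -/
def vl {E : Type} [Field E] [Algebra ℂ E] (p : LP K E) (t : K) : Option E :=
  if t ∈ p.V.1 then some (p.r t) else none

/-- the values of the members of `T` at `p` are the images of the values `z` -/
def Vals (T : Finset K) {E₀ E : Type} [Field E₀] [Algebra ℂ E₀] [Field E] [Algebra ℂ E]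
    (z : K → Option E₀) (α : E₀ →ₐ[ℂ] E) (p : LP K E) : Prop :=
  ∀ t ∈ T, vl p t = (z t).map α

/-- the family `φ` lives on `Z` -/
structure Liv (B : Th) (Z : Set (RZ ℂ K)) (φ : PF B K) : Prop where
  nat : ∀ (E L : Type) [Field E] [Algebra ℂ E] [Algebra.EssFiniteType ℂ E] [Field L] [Algebra ℂ L]
    [Algebra.EssFiniteType ℂ L] (p : LP K E) (q : LP E L), p.V ∈ Z →
    φ L (p.comp q) = B.pb q (φ E p)
  loc : ∃ T : Finset K, ∀ (E₀ : Type) [Field E₀] [Algebra ℂ E₀] [Algebra.EssFiniteType ℂ E₀]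
    (z : K → Option E₀), ∃ x : B.H E₀, ∀ (E : Type) [Field E] [Algebra ℂ E]
    [Algebra.EssFiniteType ℂ E] (α : E₀ →ₐ[ℂ] E) (p : LP K E), p.V ∈ Z → Vals T z α p →
    φ E p = B.pb (LP.hom α) x

/-- the family of polynomials `Φ` lives on `Z` -/
structure LivX (B : Th) (Z : Set (RZ ℂ K)) (Φ : PX B K) : Prop where
  nat : ∀ (E L : Type) [Field E] [Algebra ℂ E] [Algebra.EssFiniteType ℂ E] [Field L] [Algebra ℂ L]
    [Algebra.EssFiniteType ℂ L] (p : LP K E) (q : LP E L), p.V ∈ Z →
    Φ L (p.comp q) = (Φ E p).map (B.pb q : B.H E →+* B.H L)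
  loc : ∃ T : Finset K, ∀ (E₀ : Type) [Field E₀] [Algebra ℂ E₀] [Algebra.EssFiniteType ℂ E₀]
    (z : K → Option E₀), ∃ x : (B.H E₀)[X], ∀ (E : Type) [Field E] [Algebra ℂ E]
    [Algebra.EssFiniteType ℂ E] (α : E₀ →ₐ[ℂ] E) (p : LP K E), p.V ∈ Z → Vals T z α p →
    Φ E p = x.map (B.pb (LP.hom α) : B.H E₀ →+* B.H E)

/-- the support of a b-divisor -/
def Sup (D : BD ℂ K) : Set (RZ ℂ K) := {V | D.val V ≠ 1}

/-- the sum over the components of a b-divisor -/
def sm (a : BD ℂ K) (f : RZ ℂ K → ℂ) : ℂ := ∑ᶠ (V : RZ ℂ K) (_ : Dvs V), od V a * f V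

variable (B : Th)

/-- the first Chern class as a family -/
def cf (a : BD ℂ K) : PF B K := fun _ _ _ p => B.pb p (B.c1 a)

variable {B}

/-- the integral over `V` -/
def i1 (φ : PF B K) (V : RZ ℂ K) : ℂ := B.itg (Rf V) (φ (Rf V) (LP.at V))

/-- the integral over the flag `(V, W)` -/
def i2 (φ : PF B K) (V : RZ ℂ K) (W : RZ ℂ (Rf V)) : ℂ :=
  B.itg (Rf W) (φ (Rf W) ((LP.at V).comp (LP.at W)))

open Classical in
/-- the integral over `V · D` of a family which lives on the support of `D` -/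
def cut (D : BD ℂ K) (φ : PF B K) (V : RZ ℂ K) : ℂ :=
  if D.val V = 1 then sm ((plV V).res D) (i2 φ V) else i1 (cf B D * φ) V

/-- `Q(x)` for `X * Q = P(0) - P` -/
def qv (Φ : PX B K) (x : PF B K) : PF B K := fun E _ _ p => (-(Φ E p).divX).eval (x E p)

/-- `P(x)` -/
def pv (Φ : PX B K) (x : PF B K) : PF B K := fun E _ _ p => (Φ E p).eval (x E p)


open Classical in
/-- the excess class of an extension: `P` belongs to the quotient (section with divisor `D`),
`R` to the kernel (section with divisor `H` on the support of `D - D ⊓ H`) -/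
def TwoStmt : Prop :=
  ∀ (B : Th), B.Ax → ∀ {K : Type} [Field K] [Algebra ℂ K] [Algebra.EssFiniteType ℂ K]
    (D H : BD ℂ K) (P R : PX B K) (ψ : PF B K), 0 ≤ D → 0 ≤ H → LivX B (Sup (D ⊓ H)) P →
    LivX B (Sup (D ⊓ H)) R → Liv B (Sup (D ⊓ H)) ψ →
    (∀ (E : Type) [Field E] [Algebra ℂ E] [Algebra.EssFiniteType ℂ E] (p : LP K E),
      p.V ∈ Sup (D ⊓ H) → pv P (cf B D) E p = 0) →
    (∀ (E : Type) [Field E] [Algebra ℂ E] [Algebra.EssFiniteType ℂ E] (p : LP K E),
      p.V ∈ Sup H → H.val p.V < D.val p.V → pv R (cf B H) E p = 0) →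
    sm (D ⊓ H) (i1 (qv (P * R) (cf B (D ⊓ H)) * ψ)) =
      sm D fun V => if H.val V = 1 then
        sm ((plV V).res H) (i2 (qv P (cf B D) * qv R (cf B H) * ψ) V)
      else i1 (qv P (cf B D) * pv R 0 * ψ) V

end Crest.Agent.X262.Sym65
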