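import Crest.Agent.X262.FG.Prm0
import Crest.Agent.X262.Hb.Defs

-- ▼ part X262/Sym65/Sml
section

/-!
# Row 262, road B, SYM (helper65), part 1: small places

* `Reg P T`   : every member of `T` defines a morphism from `P` to the projective line;
* `Sml S`     : the field is not algebraic over the subfield generated by `S`;
* `sml_one`   : a divisorial valuation which is not a prime of `P` is small;
* `sml_two`   : over such a valuation every place at which an effective divisor starts to vanish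
  is small.
-/

set_option autoImplicit false
set_option linter.unusedSectionVars false

noncomputable section

namespace Crest.Agent.X262.Sym65

open Crest.Agent.X277 Crest.Agent.X277.Lef Crest.Agent.X277.AN.G1 Crest.Agent.X277.BD
open Crest.Agent.X277.BD.Cyc (Lnr Rf plV lnr_plV surj_plV)
open Crest.Agent.X277.BD.Br (At oP)
open Crest.Agent.X277.Pst (Prm loc Dvs)
open Crest.Agent.X277.Cns (Ov)
open Crest.Agent.R276.DivVal_858 (ResInd)
open Crest.Agent.X262.Geo (od)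

variable {F E E' : Type} [Field F] [Algebra ℂ F] [Field E] [Algebra ℂ E] [Field E'] [Algebra ℂ E']
  {P : PModel ℂ F}

/-- every member of `T` defines a morphism from `P` to the projective line -/
def Reg (P : PModel ℂ F) (T : Set F) : Prop :=
  ∀ t ∈ T, ∀ x : Pts P, t ∈ (lp x).O ∨ t⁻¹ ∈ (lp x).O

/-- `E` is not algebraic over the field generated by `S` -/
def Sml (S : Set E) : Prop := ¬ Algebra.IsAlgebraic (IntermediateField.adjoin ℂ S) E

theorem Sml.of_le {S S' : Set E} (h : Sml S') (hle : S ⊆ IntermediateField.adjoin ℂ S') :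
    Sml S := fun h1 => h ⟨fun x =>
  (h1.1 x).tower_top_of_subalgebra_le (A := (IntermediateField.adjoin ℂ S).toSubalgebra)
    (B := (IntermediateField.adjoin ℂ S').toSubalgebra) (IntermediateField.adjoin_le_iff.2 hle)⟩

theorem Sml.finrank {S : Set E} (h : Sml S) :
    Module.finrank (IntermediateField.adjoin ℂ S) E = 0 :=
  Module.finrank_of_not_finite fun _ => h inferInstance

theorem exists_ind [Algebra.EssFiniteType ℂ E] {S : Set E} (h : ¬ Sml S) {d : ℕ}
    (hd : dim ℂ E = d) : ∃ y : Fin d → E, (∀ i, y i ∈ S) ∧ AlgebraicIndependent ℂ y := by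
  have h1 : Algebra.IsAlgebraic (Algebra.adjoin ℂ S) E :=
    IntermediateField.isAlgebraic_adjoin_iff_top.1 (not_not.1 h)
  obtain ⟨t, ht, hb⟩ := exists_isTranscendenceBasis_subset (R := ℂ) S
  have h2 := hb.cardinalMk_eq_trdeg
  rw [trdeg_eq_dim, hd] at h2
  obtain ⟨e⟩ := Cardinal.mk_eq_nat_iff.1 h2
  exact ⟨fun i => e.symm i, fun i => ht (e.symm i).2, hb.1.comp _ e.symm.injective⟩

theorem lp_le_loc {V : RZ ℂ F} {x : Pts P} (hx : Ov x V.1) {f : F} (hf : f ∈ (lp x).O) :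
    f ∈ loc (oP P) V := by
  obtain ⟨i, hi⟩ := exists_pat x
  have h1 : ∀ y ∈ P.A i, y ∈ loc (oP P) V := fun y hy =>
    Geo.mem_loc_of_chart Br.free_oP (Br.y_mem_Sec i) (Br.at_y hi V hx)
      fun W hW => FG.Prm5.chart_le hW y hy
  obtain ⟨a, ha, c, hc, h0, h2⟩ := (mem_lp_iff hi).1 hf
  have h3 := mul_mem (h1 a ha) (Neg.inv_mem_loc (h1 c hc) (Br.ev_ne_iff'.1 h0 V hx))
  rwa [← h2, mul_inv_cancel_right₀ (LP.ne_zero_of_ne h0)] at h3

/-- the residues of `T` lie in the field generated by the residues of the local ring -/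
theorem Reg.sub {T : Set F} (h : Reg P T) (x : Pts P) {r : F → E} (hr : ∀ f, r f⁻¹ = (r f)⁻¹) :
    r '' T ⊆ IntermediateField.adjoin ℂ (r '' (lp x).O) := by
  rintro _ ⟨t, ht, rfl⟩
  rcases h t ht x with h1 | h1
  · exact IntermediateField.subset_adjoin _ _ ⟨t, h1, rfl⟩
  · rw [← inv_inv t, hr]
    exact inv_mem (IntermediateField.subset_adjoin _ _ ⟨_, h1, rfl⟩)

variable [Algebra.EssFiniteType ℂ F]

/-- a divisorial valuation which is not a prime of the model is small -/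
theorem sml_one {T : Set F} (hT : Reg P T) {V : RZ ℂ F} (hV : Dvs V) (h : ¬ Prm (oP P) V) :
    Sml ((plV V).r '' T) := by
  obtain ⟨x, hx⟩ := Br.exists_ov' P V
  refine Sml.of_le (by_contra fun h1 => h ⟨hV.ne_top, ?_⟩) (hT.sub x Pl.r_inv)
  have := Geo.essFT_Rf hV
  obtain ⟨y, hy, hi⟩ := exists_ind h1 (d := Gj.dm ℂ F - 1)
    (by rw [Geo.dm_eq, Geo.dim_Rf' hV]; rfl)
  choose z hz hzy using hy
  refine ⟨z, fun i => lp_le_loc hx (hz i), (Geo.resInd_iff (lnr_plV V) fun i => hx _ (hz i)).2 ?_⟩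
  simpa only [hzy] using hi

theorem ind_option {W : RZ ℂ E} {ι : Type} {y : ι → E} (hy : ResInd ℂ W.1 y) {u : E} (h0 : u ≠ 0)
    (hu : W.v u < 1) : AlgebraicIndependent ℂ fun o : Option ι => o.elim u y := by
  rw [hy.algInd.option_iff_transcendental]
  intro h
  obtain ⟨q, hq, hqu⟩ := h.exists_nonzero_coeff_and_aeval_eq_zero (mem_nonZeroDivisors_of_ne_zero h0)
  have h1 : ∀ a : Algebra.adjoin ℂ (Set.range y), W.v a ≤ 1 ∧ (a ≠ 0 → W.v a = 1) := by
    rintro ⟨a, ha⟩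
    rw [Algebra.adjoin_range_eq_range_aeval] at ha
    obtain ⟨p, rfl⟩ := ha
    by_cases hp : p = 0
    · subst hp
      exact ⟨by simp, fun h => (h (Subtype.ext (map_zero _))).elim⟩
    · exact ⟨(hy.2 p hp).le, fun _ => hy.2 p hp⟩
  have h2 : ∀ p : Polynomial (Algebra.adjoin ℂ (Set.range y)), W.v (Polynomial.aeval u p) ≤ 1 := by
    intro p
    rw [Polynomial.aeval_eq_sum_range]
    refine W.v.map_sum_le fun i _ => ?_
    rw [Algebra.smul_def, map_mul, map_pow]
    exact mul_le_one' (h1 _).1 (pow_le_one' hu.le i)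
  rw [← Polynomial.X_mul_divX_add q, map_add, map_mul, Polynomial.aeval_X, Polynomial.aeval_C,
    add_eq_zero_iff_neg_eq] at hqu
  have h3 := (h1 _).2 hq
  change W.v (algebraMap _ E (q.coeff 0)) = 1 at h3
  rw [← hqu, Valuation.map_neg, map_mul] at h3
  exact ((mul_le_of_le_one_right' (h2 _)).trans_lt hu).ne h3

/-- over a divisorial valuation which is not a prime of the model, the places at which an effective
divisor of the model starts to vanish are small -/
theorem sml_two {T : Set F} (hT : Reg P T) {V : RZ ℂ F} (hV : Dvs V) (h : ¬ Prm (oP P) V)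
    {a : BD ℂ F} (ha : a ∈ Br.On P) (h0 : 0 ≤ a) (h1 : a.val V = 1) {W : RZ ℂ (Rf V)} (hW : Dvs W)
    (h2 : od W ((plV V).res a) ≠ 0) : Sml ((fun f => (plV W).r ((plV V).r f)) '' T) := by
  obtain ⟨x, hx⟩ := Br.exists_ov' P ((plV V).cm W)
  have hxV : Ov x V.1 := fun f hf => (hx f hf).1
  refine Sml.of_le (by_contra fun h3 => h ⟨hV.ne_top, ?_⟩)
    (hT.sub x fun f => by rw [Pl.r_inv, Pl.r_inv])
  have := Geo.essFT_Rf hV
  have := Geo.essFT_Rf hW
  obtain ⟨y, hy, hi⟩ := exists_ind h3 rfl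
  choose z hz hzy using hy
  obtain ⟨g, hg⟩ := ha x
  have hg1 : g⁻¹ ∈ (lp x).O := by simpa using hg.div_mem (nonneg_iff.1 h0)
  have hg2 : V.v g = 1 := (hg V hxV).trans h1
  have hg3 : (plV V).r g ≠ 0 := Pl.r_ne_zero_iff.2 hg2
  have hg4 : W.v ((plV V).r g⁻¹) < 1 := by
    refine lt_of_le_of_ne (RZ.le_one_iff.2 (hx _ hg1).2) fun h4 => h2 ((Geo.od_eq_zero hW).2 ?_)
    rw [Pl.r_inv, map_inv₀, inv_eq_one] at h4
    rw [Pl.val_res (p := plV V) h1 (hg _ hx), h4]
  have h5 := ind_option (W := W) (y := fun i => (plV V).r (z i))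
    ((Geo.resInd_iff (lnr_plV W) fun i => (hx _ (hz i)).2).2 (by simpa only [hzy] using hi))
    (by rw [Pl.r_inv]; exact inv_ne_zero hg3) hg4
  have hc : Fintype.card (Option (Fin (dim ℂ (Rf W)))) = Gj.dm ℂ F - 1 := by
    rw [Fintype.card_option, Fintype.card_fin, Geo.dm_eq, Geo.dim_Rf' hV, Geo.dim_Rf' hW]
    rfl
  let e := Fintype.equivFinOfCardEq hc
  have h6 : ∀ o : Option (Fin (dim ℂ (Rf W))), o.elim g⁻¹ z ∈ (lp x).O := by
    rintro (_ | i)
    exacts [hg1, hz i]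
  refine ⟨fun i => (e.symm i).elim g⁻¹ z, fun i => lp_le_loc hxV (h6 _),
    (Geo.resInd_iff (lnr_plV V) fun i => hxV _ (h6 _)).2 ?_⟩
  have h7 : (fun i => (plV V).r ((e.symm i).elim g⁻¹ z)) =
      (fun o : Option (Fin (dim ℂ (Rf W))) => o.elim ((plV V).r g⁻¹) fun i => (plV V).r (z i)) ∘
        e.symm := funext fun i => by
    rw [Function.comp_apply]
    cases e.symm i <;> rfl
  rw [h7]
  exact h5.comp _ e.symm.injective

end Crest.Agent.X262.Sym65
end
end

-- ▼ part X262/Sym65/Cen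
section

/-!
# Row 262, road B, SYM (helper65), part 2: centres

* `Bg H d U`   : the centre of `U` on the `H`-model has dimension at least `d`;
* `Bg.gz`      : a proper generisation of a centre of codimension two is a prime;
* `exists_idl` : the closure of a centre is cut out by finitely many sections;
* `exists_trunc` : the part of an exceptional divisor which lies over a centre of codimension two.
-/

set_option autoImplicit false
set_option linter.unusedSectionVars false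

noncomputable section

namespace Crest.Agent.X262.Sym65

open Crest.Agent.X277 Crest.Agent.X277.Lef Crest.Agent.X277.AN.G1 Crest.Agent.X277.BD
open Crest.Agent.X277.BD.Br (At oP)
open Crest.Agent.X277.Pst
open Crest.Agent.R276.DivVal_858 (ResInd)
open Crest.Agent.X262.Mod (Gz Car IsMod gz_of_le gz_of_loc)

variable {F : Type} [Field F] [Algebra ℂ F] {P : PModel ℂ F} {H G a : BD ℂ F} {U V U₀ : RZ ℂ F}
  {d : ℕ}

/-- the centre of `U` has dimension at least `d` -/
def Bg (H : BD ℂ F) (d : ℕ) (U : RZ ℂ F) : Prop :=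
  ∃ x : Fin d → F, (∀ i, x i ∈ loc H U) ∧ ResInd ℂ U.1 x

theorem ne_top_of_val (h : a.val V ≠ 1) : V.1 ≠ ⊤ := fun h0 =>
  h ((show V = RZ.top ℂ F from Subtype.ext h0) ▸ val_top a)

theorem gz_val (ha : Car H a) (h0 : 0 ≤ a) (h : Gz H U V) (h1 : a.val U = 1) : a.val V = 1 := by
  have h2 := ha.neg.rsa.val_eq_one (neg_nonpos.2 h0) h (by rw [val_neg, h1, inv_one])
  rwa [val_neg, inv_eq_one] at h2

/-- the maximal ideal of `U` in a subalgebra -/
def mi (A : Subalgebra ℂ F) (U : RZ ℂ F) (h : ∀ y ∈ A, y ∈ U.1) : Ideal A where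
  carrier := {y | U.v y < 1}
  add_mem' := fun hx hy => (U.v.map_add _ _).trans_lt (max_lt hx hy)
  zero_mem' := by simp
  smul_mem' := fun c y hy => by
    change U.v ((c : F) * y) < 1
    rw [map_mul]
    exact (mul_le_of_le_one_left' (RZ.le_one_iff.2 (h c c.2))).trans_lt hy

theorem exists_idl_chart (U₀ : RZ ℂ F) (i : Fin (P.N + 1)) : ∃ S : Finset (ℕ × F),
    (∀ x ∈ S, x.2 ∈ (x.1 • oP P).Sec ∧ x.2 ≠ 0 ∧ U₀.v x.2 ≠ (x.1 • oP P).val U₀) ∧
    ∀ U : RZ ℂ F, U.v (P.y i) = (oP P).val U → (∀ x ∈ S, U.v x.2 ≠ (x.1 • oP P).val U) →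
      Gz (oP P) U U₀ := by
  classical
  by_cases hi : U₀.v (P.y i) = (oP P).val U₀
  swap
  · refine ⟨{(1, P.y i)}, fun x hx => ?_, fun U h1 h2 => ?_⟩
    · rw [Finset.mem_singleton.1 hx]
      simpa using ⟨Br.y_mem_Sec i, P.y_ne i, hi⟩
    · simpa [h1] using h2 (1, P.y i)
  have hv : ∀ {W : RZ ℂ F} (_ : W.v (P.y i) = (oP P).val W) (m : ℕ) (g : F),
      W.v (g * P.y i ^ m) = (m • oP P).val W ↔ W.v g = 1 := fun hW m g => by
    rw [map_mul, map_pow, hW, val_nsmul, mul_eq_right₀ (pow_ne_zero _ (val_ne _ _))]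
  obtain ⟨t, ht⟩ := (IsNoetherian.noetherian (mi (P.A i) U₀ (FG.Prm5.chart_le hi)) :)
  have h1 : ∀ g : P.A i, ∃ m : ℕ, (g : F) * P.y i ^ m ∈ (m • oP P).Sec := fun g => by
    obtain ⟨N, hN⟩ := Geo.exists_tw (a := 0) (x := (g : F)) Br.free_oP (Br.y_mem_Sec i) (P.y_ne i)
      fun W hW => RZ.le_one_iff.2 (FG.Prm5.chart_le hW g g.2)
    exact ⟨N, by simpa using hN N le_rfl⟩
  choose m hm using h1
  refine ⟨(t.filter (· ≠ 0)).image fun g => (m g, (g : F) * P.y i ^ m g), fun x hx => ?_,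
    fun U h1 h2 n s hs h3 => by_contra fun h4 => ?_⟩
  · obtain ⟨g, hg, rfl⟩ := Finset.mem_image.1 hx
    obtain ⟨h2, h3⟩ := Finset.mem_filter.1 hg
    have h4 : g ∈ mi (P.A i) U₀ (FG.Prm5.chart_le hi) := ht ▸ Submodule.subset_span h2
    exact ⟨hm g, mul_ne_zero (by simpa using h3) (pow_ne_zero _ (P.y_ne i)),
      (hv hi _ _).not.2 (ne_of_lt h4)⟩
  · have h5 : Submodule.span (P.A i) (t : Set (P.A i)) ≤ mi (P.A i) U (FG.Prm5.chart_le h1) := by
      refine Submodule.span_le.2 fun g hg => ?_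
      by_cases h0 : g = 0
      · exact h0 ▸ zero_mem _
      · exact lt_of_le_of_ne (RZ.le_one_iff.2 (FG.Prm5.chart_le h1 g g.2)) ((hv h1 _ _).not.1
          (h2 _ (Finset.mem_image_of_mem _ (Finset.mem_filter.2 ⟨hg, h0⟩))))
    have h6 : s / P.y i ^ n * P.y i ^ n = s := div_mul_cancel₀ _ (pow_ne_zero _ (P.y_ne i))
    have h7 : (⟨_, FG.Prm5.div_mem_A hs⟩ : P.A i) ∈ mi (P.A i) U₀ (FG.Prm5.chart_le hi) :=
      lt_of_le_of_ne (RZ.le_one_iff.2 (FG.Prm5.chart_le hi _ (FG.Prm5.div_mem_A hs)))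
        ((hv hi n _).not.1 (h6.symm ▸ h4))
    exact ne_of_lt (h5 (ht ▸ h7)) ((hv h1 n _).1 (h6.symm ▸ h3))

/-- the closure of a centre is cut out by finitely many sections -/
theorem exists_idl (P : PModel ℂ F) (U₀ : RZ ℂ F) : ∃ S : Finset (ℕ × F),
    (∀ x ∈ S, x.2 ∈ (x.1 • oP P).Sec ∧ x.2 ≠ 0 ∧ U₀.v x.2 ≠ (x.1 • oP P).val U₀) ∧
    ∀ U : RZ ℂ F, (∀ x ∈ S, U.v x.2 ≠ (x.1 • oP P).val U) → Gz (oP P) U U₀ := by
  classical
  choose S h1 h2 using exists_idl_chart (P := P) U₀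
  refine ⟨Finset.univ.biUnion S, fun x hx => ?_, fun U hU => ?_⟩
  · obtain ⟨i, -, hi⟩ := Finset.mem_biUnion.1 hx
    exact h1 i x hi
  · obtain ⟨i, hi, -⟩ := Br.exists_chart (P := P) U
    exact h2 i U hi fun x hx => hU x (Finset.mem_biUnion.2 ⟨i, Finset.mem_univ _, hx⟩)

theorem exists_inf {ι : Type} (hG : 0 ≤ G) (S : Finset ι) (e : ι → BD ℂ F) (he : ∀ x ∈ S, 0 ≤ e x) :
    ∃ C : BD ℂ F, 0 ≤ C ∧ C ≤ G ∧
      (∀ W, (∀ x ∈ S, G.val W ≤ (e x).val W) → C.val W = G.val W) ∧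
      ∀ W, C.val W ≠ 1 → ∀ x ∈ S, (e x).val W ≠ 1 := by
  classical
  induction S using Finset.induction_on with
  | empty => exact ⟨G, hG, le_rfl, fun _ _ => rfl, by simp⟩
  | insert x S _ ih =>
    obtain ⟨C, h1, h2, h3, h4⟩ := ih fun y hy => he y (Finset.mem_insert_of_mem hy)
    have h5 := he x (Finset.mem_insert_self _ _)
    refine ⟨C ⊓ e x, le_inf h1 h5, inf_le_left.trans h2, fun W hW => ?_, fun W hW y hy => ?_⟩
    · rw [val_inf, h3 W fun y hy => hW y (Finset.mem_insert_of_mem hy),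
        min_eq_left (hW x (Finset.mem_insert_self _ _))]
    · rw [val_inf] at hW
      rcases Finset.mem_insert.1 hy with rfl | hy
      · exact fun h => hW (by rw [h]; exact min_eq_right (h1 W))
      · exact h4 W (fun h => hW (by rw [h]; exact min_eq_left (h5 W))) y hy

variable [Algebra.EssFiniteType ℂ F]

/-- a proper generisation of a centre of codimension two is a prime -/
theorem Bg.gz (hH : Free H) (hd : dim ℂ F = d + 2) (hU : Bg H d U) (h : Gz H U V) (h0 : V.1 ≠ ⊤)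
    (hV : ¬ Prm H V) : Gz H V U := fun m s hs h1 => by
  by_contra h2
  obtain ⟨x, h3, h4⟩ := hU
  obtain ⟨t, h5, h6⟩ := (hH.nsmul m).exists_gen U
  have hw : s / t ∈ loc H U := div_mem_loc hs h5 h6
  have h7 := resInd_cons (V := U) (V' := V) (A := loc H U)
    (fun a ha => mem_of_loc (h.loc_le ha)) (fun a ha => h.unit ha) h4 h3 hw
    (by
      rw [map_div₀, h6, div_lt_one₀ (val_pos _ _)]
      exact lt_of_le_of_ne (hs U) h2)
    (by rw [map_div₀, h1, h m t h5 h6, div_self (val_ne _ _)])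
  have h8 : Gj.dm ℂ F - 1 = d + 1 := by rw [Geo.dm_eq, hd]; rfl
  exact hV ⟨h0, _, fun i => h.loc_le (Fin.cases (motive := fun j => (Fin.cons (s / t) x :
    Fin (d + 1) → F) j ∈ loc H U) hw h3 (Fin.cast h8 i)), h7.comp _ (Fin.cast_injective h8)⟩

/-- the part of an exceptional divisor over a centre of codimension two -/
theorem exists_trunc (hd : dim ℂ F = d + 2) (hG : 0 ≤ G) (hx : ∀ V, Prm (oP P) V → G.val V = 1)
    (hU : Bg (oP P) d U₀) : ∃ C : BD ℂ F, 0 ≤ C ∧ C ≤ G ∧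
      (∀ W, Gz (oP P) U₀ W → C.val W = G.val W) ∧ ∀ W, C.val W ≠ 1 → Gz (oP P) W U₀ := by
  obtain ⟨S, h1, h2⟩ := exists_idl P U₀
  have h3 : ∀ x : ℕ × F, ∃ N : ℕ, x ∈ S → ∀ W, Gz (oP P) U₀ W →
      G.val W ≤ (N • (x.1 • oP P - pr ℂ x.2)).val W := fun x => by
    by_cases hS : x ∈ S
    swap
    · exact ⟨0, fun h => (hS h).elim⟩
    obtain ⟨h4, h5, h6⟩ := h1 x hS
    obtain ⟨t, h7, h8⟩ := ((Br.free_oP (P := P)).nsmul x.1).exists_gen U₀
    have hc : x.2 / t ∈ loc (oP P) U₀ := div_mem_loc h4 h7 h8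
    obtain ⟨N, hN⟩ := Br.exists_pow_le (a := -G) (S := loc (oP P) U₀) (u := 1) hc
      fun W hW hi => by
        rw [map_one, val_neg, one_le_inv₀ (val_pos _ _)]
        refine le_of_eq (by_contra fun h9 => h6 ?_)
        have h10 := gz_of_loc Br.free_oP hW
        have h11 := (hU.gz Br.free_oP hd h10 (ne_top_of_val h9) fun h => h9 (hx W h)).unit
          (h10.loc_le hc) ((RZ.le_one_iff.2 (hW _ hc)).antisymm (by
            have h12 := RZ.le_one_iff.2 hi
            rwa [map_inv₀, inv_le_one₀ (RZ.pos (div_ne_zero h5 (ne_of_val h8)))] at h12))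
        rwa [map_div₀, h8, div_eq_one_iff_eq (val_ne _ _)] at h11
    refine ⟨N, fun _ W hW => ?_⟩
    have h9 := hN N le_rfl W fun y hy => mem_of_loc (hW.loc_le hy)
    rw [mul_one, map_pow, map_div₀, hW _ t h7 h8, val_neg,
      le_inv_comm₀ (pow_pos (div_pos (RZ.pos h5) (val_pos _ _)) _) (val_pos _ _), ← inv_pow,
      inv_div] at h9
    rwa [val_nsmul, val_sub, val_pr h5]
  choose N hN using h3
  obtain ⟨C, h4, h5, h6, h7⟩ := exists_inf hG S (fun x => N x • (x.1 • oP P - pr ℂ x.2))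
    fun x hx => nsmul_nonneg (sub_nonneg.2 ((pr_le_iff (h1 x hx).2.1).2 (h1 x hx).1)) _
  refine ⟨C, h4, h5, fun W hW => h6 W fun x hx => hN x hx W hW, fun W hW => h2 W fun x hx h => ?_⟩
  refine h7 W hW x hx ?_
  rw [val_nsmul, val_sub, val_pr (h1 x hx).2.1, h, div_self (val_ne _ _), one_pow]

end Crest.Agent.X262.Sym65
end
end

-- ▼ part X262/Sym65/Res

/-!
# Row 262, road B, SYM (helper65), part 3: the residue field of a centre, degrees of flags

* `exists_res` : the residue field of a centre embeds in the target of every place over it;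
* `fl V W`     : the place of a flag;  `fd P d V W` : its degree;
* `exists_prop` : over a fixed centre the degree of a flag is the residue degree times a constant;
* `bg_of_fd`   : flags of nonzero degree have a big centre.
-/

set_option autoImplicit false
set_option linter.unusedSectionVars false

noncomputable section

namespace Crest.Agent.X262.Sym65

open Crest.Agent.X277 Crest.Agent.X277.Lef Crest.Agent.X277.AN.G1 Crest.Agent.X277.BD
open Crest.Agent.X277.BD.Cyc (Lnr Rf plV lnr_plV surj_plV)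
open Crest.Agent.X277.BD.Br (At oP)
open Crest.Agent.X277.Pst
open Crest.Agent.R276.DivVal_858 (ResInd)
open Crest.Agent.X262.Mod (Gz Car IsMod gz_of_le gz_of_loc)
open Crest.Agent.X262.Geo (od dg)
open Crest.Agent.X262.Hb

variable {F E L : Type} [Field F] [Algebra ℂ F] [Field E] [Algebra ℂ E] [Field L] [Algebra ℂ L]
  {P : PModel ℂ F} {H : BD ℂ F} {U V U₀ : RZ ℂ F} {d : ℕ}


theorem r_comp (p : LP F E) (q : LP E L) (x : F) : (p.comp q).r x = q.r (p.r x) := by
  by_cases hx : x ∈ (p.comp q).V.1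
  · exact Pl.r_eq _ hx
  · rw [Pl.r, dif_neg hx]
    by_cases h1 : x ∈ p.V.1
    · rw [Pl.r, dif_neg fun h2 => hx ⟨h1, h2⟩]
    · rw [show p.r x = 0 from dif_neg h1, Pl.r_zero]

/-- evaluation at a place -/
def evA (p : LP F E) (A : Subalgebra ℂ F) (h : ∀ y ∈ A, y ∈ p.V.1) : A →ₐ[ℂ] E where
  toFun x := p.r x
  map_one' := p.r_one
  map_mul' x y := Pl.r_mul (h _ x.2) (h _ y.2)
  map_zero' := p.r_zero
  map_add' x y := Pl.r_add (h _ x.2) (h _ y.2)
  commutes' c := p.lnr c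

theorem mi_max (H : BD ℂ F) (U : RZ ℂ F) : (mi (loc H U) U fun _ => mem_of_loc).IsMaximal := by
  refine Ideal.isMaximal_iff.2 ⟨fun h => ?_, fun J x _ h1 h2 => ?_⟩
  · exact lt_irrefl _ ((map_one U.v).symm.trans_lt h)
  · have h3 : U.v x = 1 := (RZ.le_one_iff.2 (mem_of_loc x.2)).antisymm (not_lt.1 h1)
    have h4 := J.mul_mem_left ⟨_, Neg.inv_mem_loc x.2 h3⟩ h2
    convert h4 using 1
    exact Subtype.ext (inv_mul_cancel₀ (RZ.ne_zero_iff.1 (h3 ▸ one_ne_zero))).symm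

theorem chart_le_loc {i : Fin (P.N + 1)} (hi : U.v (P.y i) = (oP P).val U) :
    P.A i ≤ loc (oP P) U := fun y hy =>
  Geo.mem_loc_of_chart Br.free_oP (Br.y_mem_Sec i) hi fun _ hW => FG.Prm5.chart_le hW y hy

/-- the residue field of a centre -/
theorem exists_res {i : Fin (P.N + 1)} (hi : U₀.v (P.y i) = (oP P).val U₀) :
    ∃ (κ : Type) (_ : Field κ) (_ : Algebra ℂ κ) (ρ : F → κ),
      IntermediateField.adjoin ℂ (Set.range fun j => ρ (P.y j / P.y i)) = ⊤ ∧
      ∀ (E : Type) [Field E] [Algebra ℂ E] (p : LP F E), Gz (oP P) U₀ p.V → Gz (oP P) p.V U₀ →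
        ∃ α : κ →ₐ[ℂ] E, ∀ x ∈ loc (oP P) U₀, p.r x = α (ρ x) := by
  classical
  let O := loc (oP P) U₀
  let m : Ideal O := mi O U₀ fun _ => mem_of_loc
  have hm : m.IsMaximal := mi_max _ _
  let : Field (O ⧸ m) := Ideal.Quotient.field m
  let π : O →ₐ[ℂ] O ⧸ m := Ideal.Quotient.mkₐ ℂ m
  let ρ : F → O ⧸ m := fun x => if h : x ∈ O then π ⟨x, h⟩ else 0
  have hρ : ∀ x : O, ρ x = π x := fun x => dif_pos x.2
  refine ⟨O ⧸ m, inferInstance, inferInstance, ρ, eq_top_iff.2 fun z _ => ?_,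
    fun E _ _ p h1 h2 => ?_⟩
  · have h1 : ∀ y (hy : y ∈ P.A i), π ⟨y, chart_le_loc hi hy⟩ ∈
        IntermediateField.adjoin ℂ (Set.range fun j => ρ (P.y j / P.y i)) := by
      intro y hy
      induction hy using Algebra.adjoin_induction with
      | mem y hy =>
        obtain ⟨j, rfl⟩ := hy
        exact IntermediateField.subset_adjoin _ _ ⟨j, hρ ⟨_, _⟩⟩
      | algebraMap c => exact (π.commutes c).symm ▸ IntermediateField.algebraMap_mem _ c
      | add x y hx hy h1 h2 =>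
        exact (map_add π ⟨x, chart_le_loc hi hx⟩ ⟨y, chart_le_loc hi hy⟩).symm ▸ add_mem h1 h2
      | mul x y hx hy h1 h2 =>
        exact (map_mul π ⟨x, chart_le_loc hi hx⟩ ⟨y, chart_le_loc hi hy⟩).symm ▸ mul_mem h1 h2
    obtain ⟨⟨x, hx⟩, rfl⟩ := Ideal.Quotient.mkₐ_surjective ℂ m z
    obtain ⟨n, g, h2, h3, h4⟩ := id hx
    have h5 := h1 _ (FG.Prm5.div_mem_A (i := i) h2)
    have h6 := h1 _ (FG.Prm5.div_mem_A (i := i) h4)
    have h7 : π ⟨_, chart_le_loc hi (FG.Prm5.div_mem_A (i := i) h2)⟩ ≠ 0 := fun h => by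
      have h8 : U₀.v (g / P.y i ^ n) < 1 := Ideal.Quotient.eq_zero_iff_mem.1 h
      rw [map_div₀, map_pow, h3, hi, val_nsmul, div_self (pow_ne_zero _ (val_ne _ _))] at h8
      exact lt_irrefl _ h8
    have h8 := div_mem h6 h5
    rwa [show (⟨_, chart_le_loc hi (FG.Prm5.div_mem_A (i := i) h4)⟩ : O) =
      ⟨x, hx⟩ * ⟨_, chart_le_loc hi (FG.Prm5.div_mem_A (i := i) h2)⟩ from
        Subtype.ext (mul_div_assoc _ _ _), map_mul, mul_div_cancel_right₀ _ h7] at h8
  · refine ⟨Ideal.Quotient.liftₐ m (evA p O fun y hy => mem_of_loc (h1.loc_le hy)) fun x hx => ?_,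
      fun x hx => ?_⟩
    · by_contra h
      exact ne_of_lt hx (h2.unit (h1.loc_le x.2) (Pl.r_ne_zero_iff.1 h))
    · rw [show ρ x = π ⟨x, hx⟩ from hρ ⟨x, hx⟩]
      rfl

theorem lin_rs_mxf (p : Pl ℂ F ℂ E) {ι : Type} [Fintype ι] {s : ι → F} {i : ι}
    (hi : p.V.v (s i) = (mxf ℂ s).val p.V) :
    Lin (p.rs (mxf ℂ s)) (mxf ℂ fun j => p.r (s j / s i)) := by
  classical
  have h0 : s i ≠ 0 := ne_of_val hi
  have h3 : ∀ j, s j / s i ∈ p.V.1 := fun j => (RZ.le_iff h0).1 (hi ▸ mem_Sec_mxf s j p.V)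
  have h4 : mxf ℂ s - pr ℂ (s i) = mxf ℂ fun j => s j / s i := by
    refine eq_mxf (fun j => (mem_Sec_sub_pr h0).2
      (by rw [div_mul_cancel₀ _ h0]; exact mem_Sec_mxf s j)) fun W => ?_
    obtain ⟨j, hj⟩ := exists_val_mxf (k := ℂ) ⟨i, h0⟩ W
    exact ⟨j, by rw [map_div₀, hj, val_sub, val_pr h0]⟩
  have h6 := Pl.lin_rs (p := p) hi
  rwa [h4, mxf.eq_1 ℂ fun j => s j / s i, Pl.res_mx (p := p) (fun y hy => by
    obtain ⟨j, -, rfl⟩ := Finset.mem_image.1 hy; exact h3 j)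
    ⟨1, by simpa using ⟨i, div_self h0⟩, map_one _⟩, Finset.image_image] at h6

theorem lin_rs_congr (p : Pl ℂ F ℂ E) {a b : BD ℂ F} (h : Lin a b) : Lin (p.rs a) (p.rs b) := by
  obtain ⟨f, -, rfl⟩ := h
  simpa using (Pl.lin_rs_add _ _).trans (Lin.rfl.add (Pl.lin_rs_pr (p := p) f))

theorem bnum_rep [Algebra.EssFiniteType ℂ F] {a b : BD ℂ F} (h : Lin a b) (d : ℕ) :
    bnum (List.replicate d a) = bnum (List.replicate d b) := by
  have h7 : List.Forall₂ Lin (List.replicate d a) (List.replicate d b) := by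
    induction d with
    | zero => exact List.Forall₂.nil
    | succ e ih => exact List.Forall₂.cons h ih
  simpa using bnum_congr h7 []

/-- the place of a flag -/
abbrev fl (V : RZ ℂ F) (W : RZ ℂ (Rf V)) : LP F (Rf W) := (LP.at V).comp (LP.at W)

/-- the degree of a flag -/
def fd (P : PModel ℂ F) (d : ℕ) (V : RZ ℂ F) (W : RZ ℂ (Rf V)) : ℤ :=
  dg W (List.replicate d ((plV V).rs (oP P)))

theorem fl_V (V : RZ ℂ F) (W : RZ ℂ (Rf V)) : (fl V W).V = (plV V).cm W := rfl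

theorem fl_r (V : RZ ℂ F) (W : RZ ℂ (Rf V)) (x : F) : (fl V W).r x = (plV W).r ((plV V).r x) :=
  r_comp _ _ x

theorem fd_eq {W : RZ ℂ (Rf V)} [Algebra.EssFiniteType ℂ (Rf W)] {i : Fin (P.N + 1)}
    (hi : (fl V W).V.v (P.y i) = (oP P).val (fl V W).V) :
    fd P d V W = bnum (List.replicate d (mxf ℂ fun j => (fl V W).r (P.y j / P.y i))) := by
  rw [fl_V] at hi
  have h1 : V.v (P.y i) = (oP P).val V := val_of_le (Pl.cm_le (p := plV V) W) hi
  have h2 : (plV V).r (P.y i / P.y i) = 1 := by rw [div_self (P.y_ne i), Pl.r_one]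
  have h0 : ∀ j, (plV V).r (P.y j / P.y i) ∈ W.1 := fun j =>
    (FG.Prm5.chart_le hi _ (div_mem_chart P.y i j)).2
  have h4 : W.v ((plV V).r (P.y i / P.y i)) =
      (mxf ℂ fun j => (plV V).r (P.y j / P.y i)).val W :=
    (val_mxf (s := fun j => (plV V).r (P.y j / P.y i)) (by rw [h2]; exact one_ne_zero) fun j => by
      rw [h2, map_one]
      exact RZ.le_one_iff.2 (h0 j)).symm
  have h3 := lin_rs_mxf (plV W) (s := fun j => (plV V).r (P.y j / P.y i)) (i := i) h4
  have h5 : Lin ((plV V).rs (oP P)) (mxf ℂ fun j => (plV V).r (P.y j / P.y i)) :=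
    lin_rs_mxf (plV V) h1
  rw [fd, Geo.dg_eq, List.map_replicate, bnum_rep ((lin_rs_congr _ h5).trans h3)]
  simp only [h2, div_one, fl_r]

theorem essFT_of_adjoin {ι : Type} [Finite ι] {u : ι → E}
    (h : IntermediateField.adjoin ℂ (Set.range u) = ⊤) : Algebra.EssFiniteType ℂ E :=
  IntermediateField.fg_top_iff.1 (h ▸ IntermediateField.fg_adjoin_of_finite (Set.finite_range u))

theorem not_sml_of_top {S : Set E} (h : IntermediateField.adjoin ℂ S = ⊤) : ¬ Sml S := fun h1 =>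
  h1 (by
    rw [h, Algebra.isAlgebraic_iff_isIntegral]
    exact Algebra.isIntegral_of_surjective IntermediateField.topEquiv.surjective)

variable [Algebra.EssFiniteType ℂ F]

/-- over a fixed centre the degree of a flag is proportional to the residue degree -/
theorem exists_prop (P : PModel ℂ F) (d : ℕ) (U₀ : RZ ℂ F) :
    ∃ (κ : Type) (_ : Field κ) (_ : Algebra ℂ κ) (_ : Algebra.EssFiniteType ℂ κ) (ρ : F → κ) (h : ℤ),
      (dim ℂ κ = d → h ≠ 0) ∧ (h ≠ 0 → Bg (oP P) d U₀) ∧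
      ∀ (V : RZ ℂ F) (W : RZ ℂ (Rf V)), Dvs V → Dvs W → Gz (oP P) U₀ (fl V W).V →
        Gz (oP P) (fl V W).V U₀ → ∃ α : κ →ₐ[ℂ] Rf W,
          (∀ x ∈ loc (oP P) U₀, (fl V W).r x = α (ρ x)) ∧ fd P d V W = deg α * h := by
  obtain ⟨i, hi, -⟩ := Br.exists_chart (P := P) U₀
  obtain ⟨κ, _, _, ρ, h1, h2⟩ := exists_res hi
  have := essFT_of_adjoin h1
  have hy : ∀ j, P.y j / P.y i ∈ loc (oP P) U₀ := fun j => chart_le_loc hi (div_mem_chart P.y i j)
  obtain ⟨α₀, h3⟩ := h2 _ (LP.at U₀) Gz.rfl Gz.rfl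
  refine ⟨κ, inferInstance, inferInstance, this, ρ,
    bnum (List.replicate d (mxf ℂ fun j => ρ (P.y j / P.y i))), fun hd => ?_, fun h => ?_,
    fun V W hV hW h4 h5 => ?_⟩
  · have h4 : ρ (P.y i / P.y i) = 1 := α₀.injective (show α₀ _ = α₀ 1 by
      rw [← h3 _ (hy i), div_self (P.y_ne i), Pl.r_one, map_one])
    have h5 : (mxf ℂ fun j => ρ (P.y j / P.y i)).sf = ⊤ := by
      refine eq_top_iff.2 (h1 ▸ IntermediateField.adjoin_le_iff.2 ?_)
      rintro _ ⟨j, rfl⟩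
      simpa [h4] using div_mem_sf (mem_Sec_mxf (k := ℂ) (fun j => ρ (P.y j / P.y i)) j)
        (mem_Sec_mxf (k := ℂ) (fun j => ρ (P.y j / P.y i)) i)
    refine (bnum_pos (by simp [hd]) fun x hx => ?_).ne'
    rw [List.eq_of_mem_replicate hx]
    exact ⟨(free_mxf _).nef, (free_mxf _).big (not_not.1 (not_sml_of_top h5))⟩
  · obtain ⟨y, h4, h5⟩ := exists_ind (not_sml_of_top h1) (d := d)
      (by simpa using (length_of_ne h).symm)
    choose j hj using h4
    refine ⟨fun l => P.y (j l) / P.y i, fun l => hy _,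
      (Geo.resInd_iff (lnr_plV U₀) fun l => mem_of_loc (hy _)).2 ?_⟩
    have h6 : (fun l => (plV U₀).r (P.y (j l) / P.y i)) = α₀ ∘ y :=
      funext fun l => (h3 _ (hy _)).trans (congrArg α₀ (hj l))
    rw [h6]
    exact h5.map' α₀.injective
  · have := Geo.essFT_Rf hV
    have := Geo.essFT_Rf hW
    obtain ⟨α, h6⟩ := h2 _ (fl V W) h4 h5
    refine ⟨α, h6, ?_⟩
    rw [fd_eq (i := i) (by simpa using h4 1 (P.y i) (by simpa using Br.y_mem_Sec i) (by simpa using hi)),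
      ← bnum_pb, List.map_replicate, pb_mxf]
    simp only [h6 _ (hy _)]

/-- flags of nonzero degree have a big centre -/
theorem bg_of_fd {W : RZ ℂ (Rf V)} (hV : Dvs V) (hW : Dvs W) (h : fd P d V W ≠ 0) :
    Bg (oP P) d (fl V W).V := by
  obtain ⟨κ, _, _, _, ρ, c, -, h1, h2⟩ := exists_prop P d (fl V W).V
  obtain ⟨α, -, h3⟩ := h2 V W hV hW Gz.rfl Gz.rfl
  exact h1 (right_ne_zero_of_mul (h3 ▸ h))

end Crest.Agent.X262.Sym65
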